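import Mathlib
import Vale.Agent.Lib.P052.Geom

/-!
Borsuk's conjecture fails in dimension 63.

The set consists of 320 vertices of the two-distance set attached to the strongly regular graph
with parameters (416, 100, 36, 20) (the ones lying in a subspace of codimension two of its
65-dimensional eigenspace), together with one further point: the projection of a removed
vertex to that subspace, pushed radially outwards until it is at the diameter from the vertices
not adjacent to the removed one. Any subset of smaller diameter has at most 5 points, and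
321 > 64 * 5.
-/

namespace Vale.Agent.Results.P052.Borsuk63

open Vale.Agent.Lib.P052 Finset

theorem adj_zero_six : adjB 0 6 = false := by decide +kernel

/-- There is a finite set in `ℝ^63` of positive diameter which is not the union of 64 sets of
smaller diameter. So the Borsuk number of `ℝ^63` is at least 65, and Borsuk's conjecture fails
in dimension 63. -/
theorem result : ∃ Y : Set (EuclideanSpace ℝ (Fin 63)), Y.Finite ∧ 0 < Metric.diam Y ∧
    ∀ C : Fin 64 → Set (EuclideanSpace ℝ (Fin 63)), Y = ⋃ i, C i →
      ∃ i, Metric.diam Y ≤ Metric.diam (C i) := by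
  obtain ⟨u, h1, h2⟩ := exists_points
  set D : ℝ := Real.sqrt (1 / 3) with hD
  have hDpos : 0 < D := Real.sqrt_pos.mpr (by norm_num)
  have hle : ∀ a b : Fin 321, dist (u a) (u b) ≤ D := by
    intro a b
    rw [dist_eq_norm]
    apply Real.le_sqrt_of_sq_le
    exact h1 a b
  have heq : ∀ a b : Fin 321, a ≠ b → adjB (a : ℕ) (b : ℕ) = false → dist (u a) (u b) = D := by
    intro a b hab had
    rw [dist_eq_norm, hD, ← h2 a b hab had, Real.sqrt_sq (norm_nonneg _)]
  have hfin : (Set.range u).Finite := Set.finite_range u
  have hbdd : Bornology.IsBounded (Set.range u) := hfin.isBounded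
  have hdiam : Metric.diam (Set.range u) = D := by
    apply le_antisymm
    · apply Metric.diam_le_of_forall_dist_le hDpos.le
      rintro _ ⟨a, rfl⟩ _ ⟨b, rfl⟩
      exact hle a b
    · rw [← heq 0 6 (by decide) adj_zero_six]
      exact Metric.dist_le_diam_of_mem hbdd ⟨0, rfl⟩ ⟨6, rfl⟩
  refine ⟨Set.range u, hfin, by rw [hdiam]; exact hDpos, ?_⟩
  intro C hC
  by_contra hcon
  push Not at hcon
  have hmem : ∀ a : Fin 321, ∃ i, u a ∈ C i := by
    intro a
    have : u a ∈ ⋃ i, C i := by
      rw [← hC]
      exact ⟨a, rfl⟩
    exact Set.mem_iUnion.mp this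
  choose p hp using hmem
  have hsub : ∀ i, C i ⊆ Set.range u := by
    intro i x hx
    rw [hC]
    exact Set.mem_iUnion.mpr ⟨i, hx⟩
  obtain ⟨i, -, hi⟩ := Finset.exists_lt_card_fiber_of_mul_lt_card_of_maps_to
    (s := (Finset.univ : Finset (Fin 321))) (t := (Finset.univ : Finset (Fin 64))) (f := p) (n := 5)
    (fun _ _ => Finset.mem_univ _) (by simp)
  obtain ⟨T, hT, hTc⟩ := Finset.exists_subset_card_eq (s := {x ∈ (Finset.univ : Finset (Fin 321)) | p x = i})
    (n := 6) hi
  have hinj : Set.InjOn (fun a : Fin 321 => (a : ℕ)) (T : Set (Fin 321)) :=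
    fun a _ b _ h => Fin.ext h
  have hcard : (T.image (fun a : Fin 321 => (a : ℕ))).card = 6 := by
    rw [Finset.card_image_of_injOn hinj, hTc]
  refine no_six_clique (T.image (fun a : Fin 321 => (a : ℕ))) ?_ ?_ hcard
  · intro x hx
    obtain ⟨a, -, rfl⟩ := Finset.mem_image.mp hx
    exact lt_trans a.2 (by norm_num)
  · intro x hx y hy hxy
    obtain ⟨a, ha, rfl⟩ := Finset.mem_image.mp hx
    obtain ⟨b, hb, rfl⟩ := Finset.mem_image.mp hy
    have hab : a ≠ b := fun h => hxy (by rw [h])
    have hpa : p a = i := (Finset.mem_filter.mp (hT ha)).2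
    have hpb : p b = i := (Finset.mem_filter.mp (hT hb)).2
    have hua : u a ∈ C i := hpa ▸ hp a
    have hub : u b ∈ C i := hpb ▸ hp b
    have hlt : dist (u a) (u b) < D := by
      have h3 := Metric.dist_le_diam_of_mem (hbdd.subset (hsub i)) hua hub
      have h4 := hcon i
      rw [hdiam] at h4
      linarith
    have hadj : adjB (a : ℕ) (b : ℕ) = true := by
      cases h5 : adjB (a : ℕ) (b : ℕ) with
      | true => rfl
      | false =>
        rw [heq a b hab h5] at hlt
        exact absurd hlt (lt_irrefl _)
    have e : adjB (a : ℕ) (b : ℕ) = (row a).testBit b := by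
      unfold adjB
      exact bit_eq _ _
    rw [← e]
    exact hadj

end Vale.Agent.Results.P052.Borsuk63
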